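import Vale.Agent.P021Pi.Arith
import Vale.Agent.P021Pi.Assemble
import Vale.Agent.P021Pi.Saving
import Vale.Agent.P021Pi.Analytic
import Vale.Agent.P021Pi.TwoAdic

/-!
# The irrationality exponent of pi is at most 6.0375
-/

namespace Vale.Agent.Results.P021.IrrationalityExponentPi

/-- Every exponent occurring in the definition of `mu(pi)` is at most `6.0375 = 483/80`. -/
theorem result : ∀ ν : ℝ,
    {x : ℤ × ℕ | 2 ≤ x.2 ∧ Int.gcd x.1 x.2 = 1 ∧ 0 < |Real.pi - x.1 / x.2| ∧
      |Real.pi - x.1 / x.2| < (x.2 : ℝ) ^ (-ν)}.Infinite →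
    ν ≤ 6.0375 :=
  fun ν hν => P021Pi.irrationality_exponent_of
    (P021Pi.arithmetic_of P021Pi.twoAdicStatement) P021Pi.analyticStatement
    P021Pi.savingStatement ν hν

end Vale.Agent.Results.P021.IrrationalityExponentPi
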